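import Vale.Agent.P241.H435.Real
import Vale.Agent.P251.St.Chrom

/-!
# P241: objects realised by finite cell spaces, for a suspension spectrum functor `S : Susp T`
-/

open CategoryTheory MonoidalCategory Limits Pretriangulated ZeroObject
open Vale.Agent.P251.T Vale.Agent.P251.I Vale.Agent.P093.N.Real
open Vale.Agent.P251.St (Space Map FC SHCat Susp Acyclic)

set_option linter.unusedSectionVars false

namespace Vale.Agent.P241.H435

variable {T : SHCat} (S : Susp T)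

/-- `X` is, up to a shift, the suspension spectrum of a finite cell space. -/
theorem RealC.exists_space {X : T.C} (h : RealC S.toSpaceFunctor X) :
    ∃ (Z : Space) (_ : FC Z) (k : ℤ), Nonempty (S.obj Z ≅ X⟦k⟧) := by
  obtain ⟨Z, k, ⟨e⟩⟩ := h.exists_shift
  exact ⟨Vale.Agent.P251.St.ofLC Z.obj, Vale.Agent.P251.St.fc_ofLC Z.property, k, ⟨e⟩⟩

/-- morphisms of realised objects are realised by pointed maps -/
theorem exists_space_map {X Y : T.C} (g : X ⟶ Y) (hX : RealC S.toSpaceFunctor X)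
    (hY : RealC S.toSpaceFunctor Y) :
    ∃ (Z W : Space) (_ : FC Z) (_ : FC W) (h : Map Z W) (k : ℤ),
      AIso (S.map h) (g ▷ ((𝟙_ T.C)⟦k⟧)) := by
  obtain ⟨Z, W, h, k, e⟩ := exists_real_map g hX hY
  exact ⟨Vale.Agent.P251.St.ofLC Z.obj, Vale.Agent.P251.St.ofLC W.obj,
    Vale.Agent.P251.St.fc_ofLC Z.property, Vale.Agent.P251.St.fc_ofLC W.property,
    Vale.Agent.P251.St.ofHom h.hom, k, e⟩

theorem realC_obj {X : Space} (h : FC X) : RealC S.toSpaceFunctor (S.obj X) :=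
  realC_space (F := S.toSpaceFunctor)
    ⟨Vale.Agent.P251.St.toLC X, Vale.Agent.P251.St.fc_toLC h⟩

section acyclic

variable {S} {K : T.C}

theorem acyclic_iff_isZero {W : T.C} : Acyclic K W ↔ IsZero (K ⊗ W) :=
  (IsZero.iff_id_eq_zero _).symm

theorem acyclic_congr {X Y : T.C} (e : X ≅ Y) : Acyclic K X ↔ Acyclic K Y := by
  rw [acyclic_iff_isZero, acyclic_iff_isZero]
  exact (whiskerLeftIso K e).isZero_iff

theorem acyclic_tensor_sphere {X : T.C} (k : ℤ) :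
    Acyclic K (X ⊗ (𝟙_ T.C)⟦k⟧) ↔ Acyclic K X := by
  rw [acyclic_iff_isZero, acyclic_iff_isZero]
  constructor
  · intro h
    obtain ⟨e⟩ := nonempty_tensor_shift_shift (K ⊗ X) k (-k) 0 (by ring)
    have e' : K ⊗ X ≅ ((K ⊗ X) ⊗ (𝟙_ T.C)⟦k⟧) ⊗ (𝟙_ T.C)⟦(-k)⟧ :=
      (ρ_ _).symm ≪≫ whiskerLeftIso _ ((shiftFunctorZero T.C ℤ).app _).symm ≪≫ e.symm
    refine IsZero.of_iso ?_ e'
    have h2 : IsZero ((K ⊗ X) ⊗ (𝟙_ T.C)⟦k⟧) := h.of_iso (α_ _ _ _)
    rw [IsZero.iff_id_eq_zero] at h2 ⊢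
    rw [← MonoidalCategory.id_whiskerRight, h2, MonoidalPreadditive.zero_whiskerRight]
  · intro h
    have h2 : IsZero ((K ⊗ X) ⊗ (𝟙_ T.C)⟦k⟧) := by
      rw [IsZero.iff_id_eq_zero] at h ⊢
      rw [← MonoidalCategory.id_whiskerRight, h, MonoidalPreadditive.zero_whiskerRight]
    exact h2.of_iso (α_ _ _ _).symm

theorem acyclic_shift {X : T.C} (k : ℤ) : Acyclic K (X⟦k⟧) ↔ Acyclic K X :=
  (acyclic_congr (Vale.Agent.P251.M.tensorUnitShiftIso X k).symm).trans (acyclic_tensor_sphere k)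

theorem acyclic_tensor {X Y : T.C} (h : Acyclic K X) : Acyclic K (X ⊗ Y) := by
  rw [acyclic_iff_isZero] at h ⊢
  rw [IsZero.iff_id_eq_zero] at h
  refine IsZero.of_iso ?_ (α_ K X Y).symm
  rw [IsZero.iff_id_eq_zero, ← MonoidalCategory.id_whiskerRight, h,
    MonoidalPreadditive.zero_whiskerRight]

end acyclic

end Vale.Agent.P241.H435
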