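import Vale.Agent.P241.H435.Start
import Vale.Agent.P241.BD2.Vt

/-!
# P241, block START: the input `VelIn`
-/

open CategoryTheory MonoidalCategory Limits Pretriangulated MonObj
open Vale.Agent.P251.T Vale.Agent.P251.I Vale.Agent.P251.M
open Vale.Agent.P251.St (SHCat Susp)
open Vale.Agent.P241.St (RingA IsMoravaK)

set_option linter.unusedSectionVars false

namespace Vale.Agent.P241.H435

variable {T : SHCat} {S : Susp T} {p : ℕ}

theorem velIn_of [Fact p.Prime] {X : Final.Ctx S} (hKA : BD2.KAStmt S p X) : VelIn p X := by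
  intro n K hK
  have key : ∀ t : ℕ, BD.rlin X.D.R ((ρ_ _).symm.hom ≫ X.D.vel p t ▷ 𝟙_ T.C) =
      (X.D.R ◁ X.D.vel p t ≫ μ[X.D.R]) ≫ (ρ_ X.D.R).inv := fun t => by
    rw [← rlin_eq, Iso.symm_hom, rightUnitor_inv_naturality]
  constructor
  · have hx : R.IsVT X.D p n ((p : ℤ) ^ n - 1) (X.D.vel p n) :=
      ⟨1, 1, (Fact.out : p.Prime).one_lt.ne' ∘ Nat.dvd_one.1, by
        rw [← X.D.vel_spec]
        simp⟩
    have h1 := BD2.isIso_rlin_of_isVT hKA hK hx (ρ_ _).symm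
    rw [key n] at h1
    have h2 : BD.InjH K.obj ((X.D.R ◁ X.D.vel p n ≫ μ[X.D.R]) ≫ (ρ_ X.D.R).inv) :=
      BD.InjH.of_isIso _
    exact h2.of_comp
  · intro t ht
    have h1 := BD2.rlin_vel_eq_zero hKA hK ht (ρ_ _).symm
    rw [key t, MonoidalCategory.whiskerLeft_comp, Preadditive.IsIso.comp_right_eq_zero] at h1
    exact h1

end Vale.Agent.P241.H435
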