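import Vale.Agent.P241.H435.Ranks
import Vale.Agent.P241.H435.Vel
import Vale.Agent.P241.BD2.KAll
import Vale.Agent.P241.BD2.Par

/-!
# P241, block START: the final form

* `gfAll`, `rkEx`, `rkCalc` : ranks of Morava `K`-homology, unconditionally.
* `typeStmt_of_young` : `TypeStmt S p` from the Young step.
-/

open Vale.Agent.P251.St (SHCat Susp)

namespace Vale.Agent.P241.H435

variable {T : SHCat} {S : Susp T} {p : ℕ} [Fact p.Prime]

theorem gfAll : GFAll S p := fun _ _ hK => ⟨_, BD2.gfield hK⟩

/-- **`RkEx`** -/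
theorem rkEx : H132.RkEx S p := rkEx_of gfAll

/-- **`RkCalc`** -/
theorem rkCalc : RkCalc S p := rkCalc_of gfAll

/-- **START** : finite cell spaces of type `n`, from the Young step. -/
theorem typeStmt_of_young (hY : R.YoungStmt S p) : R.TypeStmt S p := by
  obtain ⟨X⟩ := Final.Ctx.nonempty S
  exact typeStmt_of X rkCalc (BD2.skelRkStmt X) (velIn_of (BD2.kaStmt X)) hY

end Vale.Agent.P241.H435
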