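import Vale.Agent.P241.KR.Basic
import Vale.Agent.P251.M.BUPi

/-!
# P241: bases of the `K`-homology of finite sums and of tensor products

* `IsBas.bisum`, `KBasis.bisum` : the basis of a finite direct sum.
* `FM.isIso_of_bas` : a morphism of free modules which maps a basis to a basis is an isomorphism.
* `KBasis.tensor` : the basis of `X ⊗ Y` with the index set `ι × κ` and the degrees
  `e (i, k) = e i + e k` (Künneth); `ev_tensor`, `od_tensor`.
-/

open CategoryTheory MonoidalCategory Limits Pretriangulated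
open Vale.Agent.P251.T Vale.Agent.P251.M

universe v u

set_option linter.unusedSectionVars false

namespace Vale.Agent.P241.KR

section bisum

variable {C : Type*} [Category* C] [Preadditive C] {S : ℤ → C} {ι κ : Type} [Fintype ι]
  [Fintype κ]

/-- the basis of a finite direct sum -/
theorem IsBas.bisum {A : ι → C} {Z : C} (inc : ∀ i, A i ⟶ Z) (prj : ∀ i, Z ⟶ A i)
    (h1 : ∀ i, inc i ≫ prj i = 𝟙 (A i)) (h2 : ∀ i j, i ≠ j → inc i ≫ prj j = 0)
    (h3 : ∑ i, prj i ≫ inc i = 𝟙 Z) {e : ι → κ → ℤ} {x : ∀ i k, S (e i k) ⟶ A i}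
    (hb : ∀ i, IsBas S (e i) (x i)) :
    IsBas S (fun a : ι × κ => e a.1 a.2) (fun a => x a.1 a.2 ≫ inc a.1) := by
  classical
  intro j
  have key : ∀ (c : ∀ a : ι × κ, S j ⟶ S (e a.1 a.2)) (i : ι),
      (∑ a : ι × κ, c a ≫ x a.1 a.2 ≫ inc a.1) ≫ prj i = ∑ k, c (i, k) ≫ x i k := by
    intro c i
    rw [Fintype.sum_prod_type, Preadditive.sum_comp]
    rw [Finset.sum_eq_single i]
    · rw [Preadditive.sum_comp]
      refine Finset.sum_congr rfl fun k _ => ?_
      rw [Category.assoc, Category.assoc, h1, Category.comp_id]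
    · intro i' _ hi
      rw [Preadditive.sum_comp]
      refine Finset.sum_eq_zero fun k _ => ?_
      rw [Category.assoc, Category.assoc, h2 i' i hi, comp_zero, comp_zero]
    · intro h
      exact absurd (Finset.mem_univ i) h
  constructor
  · intro c c' hc
    funext ⟨i, k⟩
    have h4 : (fun c : ∀ k, S j ⟶ S (e i k) => ∑ k, c k ≫ x i k) (fun k => c (i, k)) =
        (fun c : ∀ k, S j ⟶ S (e i k) => ∑ k, c k ≫ x i k) (fun k => c' (i, k)) := by
      change ∑ k, c (i, k) ≫ x i k = ∑ k, c' (i, k) ≫ x i k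
      rw [← key, ← key]
      exact congrArg (· ≫ prj i) hc
    exact congrFun ((hb i j).1 h4) k
  · intro y
    choose c hc using fun i => (hb i j).2 (y ≫ prj i)
    refine ⟨fun a => c a.1 a.2, ?_⟩
    change ∑ a : ι × κ, c a.1 a.2 ≫ x a.1 a.2 ≫ inc a.1 = y
    rw [Fintype.sum_prod_type]
    have h4 : ∀ i, ∑ k, c i k ≫ x i k ≫ inc i = (y ≫ prj i) ≫ inc i := fun i => by
      rw [← hc i, Preadditive.sum_comp]
      exact Finset.sum_congr rfl fun k _ => (Category.assoc _ _ _).symm
    simp only [h4, Category.assoc]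
    rw [← Preadditive.comp_sum, h3, Category.comp_id]

end bisum

section kbisum

variable {T : Type u} [Category.{v} T] [Preadditive T] [HasZeroObject T]
    [HasShift T ℤ] [∀ n : ℤ, (shiftFunctor T n).Additive] [Pretriangulated T]
    [MonoidalCategory T] [SymmetricCategory T] [TensorTriangulated T]
variable {K : T} [MonObj K] {ι κ : Type} [Fintype ι] [Fintype κ]

theorem frM_comp {X Y Z : T} (f : X ⟶ Y) (g : Y ⟶ Z) :
    frM K f ≫ frM K g = frM K (f ≫ g) := ((FM.free K).map_comp f g).symm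

theorem frM_id (X : T) : frM K (𝟙 X) = 𝟙 (FM.of X) := (FM.free K).map_id X

theorem frM_zero {X Y : T} : frM K (0 : X ⟶ Y) = 0 := (FM.free K).map_zero X Y

theorem frM_sum {X Y : T} (s : Finset ι) (f : ι → (X ⟶ Y)) :
    frM K (∑ i ∈ s, f i) = ∑ i ∈ s, frM K (f i) := (FM.free K).map_sum f s

/-- the basis of a finite direct sum -/
noncomputable def KBasis.bisum {A : ι → T} {Z : T} (inc : ∀ i, A i ⟶ Z) (prj : ∀ i, Z ⟶ A i)
    (h1 : ∀ i, inc i ≫ prj i = 𝟙 (A i)) (h2 : ∀ i j, i ≠ j → inc i ≫ prj j = 0)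
    (h3 : ∑ i, prj i ≫ inc i = 𝟙 Z) (b : ∀ i, KBasis K (A i) κ) : KBasis K Z (ι × κ) :=
  KBasis.ofIsBas (IsBas.bisum (fun i => frM K (inc i)) (fun i => frM K (prj i))
    (fun i => by rw [frM_comp, h1, frM_id]) (fun i j h => by rw [frM_comp, h2 i j h, frM_zero])
    (by simp only [frM_comp]; rw [← frM_sum, h3, frM_id]) (fun i => (b i).isBas))

@[simp] theorem KBasis.bisum_e {A : ι → T} {Z : T} (inc : ∀ i, A i ⟶ Z) (prj : ∀ i, Z ⟶ A i)
    (h1 : ∀ i, inc i ≫ prj i = 𝟙 (A i)) (h2 : ∀ i j, i ≠ j → inc i ≫ prj j = 0)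
    (h3 : ∑ i, prj i ≫ inc i = 𝟙 Z) (b : ∀ i, KBasis K (A i) κ) :
    (KBasis.bisum inc prj h1 h2 h3 b).e = fun a => (b a.1).e a.2 := rfl

end kbisum

section ten

variable {T : Type u} [Category.{v} T] [Preadditive T] [HasZeroObject T]
    [HasShift T ℤ] [∀ n : ℤ, (shiftFunctor T n).Additive] [Pretriangulated T] [IsTriangulated T]
    [MonoidalCategory T] [SymmetricCategory T] [TensorTriangulated T] [MonoidalClosed T]
    [HasCoproducts.{0} T] [HasProducts.{0} T] [StableCat T]
variable {K : T} [MonObj K] {X Y : T} {ι κ : Type} [Fintype ι] [Fintype κ]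

/-- a morphism of free modules is an isomorphism if it is bijective on homotopy -/
theorem isIso_of_bij_sf (f : FM.of (R := K) X ⟶ FM.of Y)
    (h : ∀ j, Function.Bijective fun y : (Sf K j ⟶ FM.of X) => y ≫ f) : IsIso f := by
  apply isIso_of_bind
  refine isIso_of_bijective_hom (fun n : ℤ => (𝟙_ T)⟦n⟧)
    (fun k k' hk => ⟨((shiftFunctorAdd' T k 1 k' hk).app _).symm⟩) StableCat.generator _ ?_ ?_
  · intro k x hx
    have h1 : mkS (K := K) (X := X) x = 0 := (h k).1 (by
      change mkS (K := K) (X := X) x ≫ f = 0 ≫ f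
      rw [zero_comp]
      exact FM.hom_ext hx)
    exact congrArg FM.Hom.hom h1
  · intro k y
    obtain ⟨x, hx⟩ := (h k).2 (mkS (K := K) (X := Y) y)
    exact ⟨FM.Hom.hom x, congrArg FM.Hom.hom hx⟩

/-- A morphism of free modules which maps a basis to a basis is an isomorphism. -/
theorem isIso_of_bas {e : ι → ℤ} {x : ∀ i, Sf K (e i) ⟶ FM.of X}
    {y : ∀ i, Sf K (e i) ⟶ FM.of Y} (hx : IsBas (Sf K) e x) (hy : IsBas (Sf K) e y)
    (f : FM.of (R := K) X ⟶ FM.of Y) (hf : ∀ i, x i ≫ f = y i) : IsIso f := by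
  apply isIso_of_bij_sf
  intro j
  have h1 : (fun c : (∀ i, Sf K j ⟶ Sf K (e i)) => ∑ i, c i ≫ y i) =
      (fun z : (Sf K j ⟶ FM.of X) => z ≫ f) ∘
        (fun c : (∀ i, Sf K j ⟶ Sf K (e i)) => ∑ i, c i ≫ x i) := by
    funext c
    change _ = (∑ i, c i ≫ x i) ≫ f
    rw [Preadditive.sum_comp]
    exact Finset.sum_congr rfl fun i _ => by rw [Category.assoc, hf]
  have h2 := hy j
  rw [h1] at h2
  exact (Function.Bijective.of_comp_iff _ (hx j)).1 h2

/-- the direct sum of the spheres of a basis -/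
theorem KBasis.exists_linIso (b : KBasis K X ι) :
    ∃ (W : T) (inc : ∀ i, (𝟙_ T)⟦b.e i⟧ ⟶ W) (prj : ∀ i, W ⟶ (𝟙_ T)⟦b.e i⟧),
      (∀ i, inc i ≫ prj i = 𝟙 _) ∧ (∀ i j, i ≠ j → inc i ≫ prj j = 0) ∧
      ∑ i, prj i ≫ inc i = 𝟙 W ∧ Nonempty (FM.of (R := K) W ≅ FM.of X) := by
  classical
  have : HasFiniteBiproducts T := HasFiniteBiproducts.of_hasFiniteProducts
  let A : ι → T := fun i => (𝟙_ T)⟦b.e i⟧
  refine ⟨⨁ A, fun i => biproduct.ι A i, fun i => biproduct.π A i,
    fun i => biproduct.ι_π_self A i, fun i j h => biproduct.ι_π_ne A h, biproduct.total, ?_⟩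
  let f : FM.of (R := K) (⨁ A) ⟶ FM.of X := ∑ i, frM K (biproduct.π A i) ≫ mkS (b.x i)
  have hx : IsBas (Sf K) (X := FM.of (⨁ A)) b.e (fun i => frM K (biproduct.ι A i)) := by
    have h1 := IsBas.bisum (S := Sf K) (κ := Unit) (fun i => frM K (biproduct.ι A i))
      (fun i => frM K (biproduct.π A i))
      (fun i => by rw [frM_comp, biproduct.ι_π_self, frM_id])
      (fun i j h => by rw [frM_comp, biproduct.ι_π_ne A h, frM_zero])
      (by simp only [frM_comp]; rw [← frM_sum, biproduct.total, frM_id])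
      (fun i => isBas_unit (Sf K) (b.e i))
    have h2 : IsBas (Sf K) (X := FM.of (⨁ A)) b.e
        (fun i => 𝟙 (Sf K (b.e i)) ≫ frM K (biproduct.ι A i)) :=
      h1.reindex (Equiv.prodUnique ι Unit).symm
    have h3 : (fun i => 𝟙 (Sf K (b.e i)) ≫ frM K (biproduct.ι A i)) =
        fun i => frM K (biproduct.ι A i) := funext fun i => Category.id_comp _
    rwa [h3] at h2
  have hf : ∀ i, frM K (biproduct.ι A i) ≫ f = mkS (b.x i) := by
    intro i
    simp only [f, Preadditive.comp_sum]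
    rw [Finset.sum_eq_single i]
    · rw [← Category.assoc, frM_comp, biproduct.ι_π_self, frM_id, Category.id_comp]
    · intro i' _ hi
      rw [← Category.assoc, frM_comp, biproduct.ι_π_ne A (Ne.symm hi), frM_zero, zero_comp]
    · intro h
      exact absurd (Finset.mem_univ i) h
  have := isIso_of_bas hx b.isBas f hf
  exact ⟨asIso f⟩

theorem exists_tensor (b : KBasis K X ι) (b' : KBasis K Y κ) :
    ∃ b'' : KBasis K (X ⊗ Y) (ι × κ), b''.e = fun a => b'.e a.2 + b.e a.1 := by
  obtain ⟨W, inc, prj, h1, h2, h3, ⟨α⟩⟩ := b.exists_linIso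
  let c : KBasis K (W ⊗ Y) (ι × κ) := KBasis.bisum (fun i => inc i ▷ Y) (fun i => prj i ▷ Y)
    (fun i => by rw [← comp_whiskerRight, h1, id_whiskerRight])
    (fun i j h => by rw [← comp_whiskerRight, h2 i j h, MonoidalPreadditive.zero_whiskerRight])
    (by
      have h4 : ∑ i, prj i ▷ Y ≫ inc i ▷ Y = (∑ i, prj i ≫ inc i) ▷ Y := by
        rw [sum_whiskerRight]
        exact Finset.sum_congr rfl fun i _ => (comp_whiskerRight _ _ _).symm
      rw [h4, h3, id_whiskerRight])
    (fun i => (b'.tensorSphere (b.e i)).ofIso (β_ _ _))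
  exact ⟨c.ofLinIso ((rtF K Y).mapIso α), rfl⟩

/-- **Künneth** : the basis of the tensor product. -/
noncomputable def KBasis.tensor (b : KBasis K X ι) (b' : KBasis K Y κ) :
    KBasis K (X ⊗ Y) (ι × κ) := (exists_tensor b b').choose

theorem KBasis.tensor_e (b : KBasis K X ι) (b' : KBasis K Y κ) (a : ι × κ) :
    (b.tensor b').e a = b.e a.1 + b'.e a.2 := by
  rw [KBasis.tensor, (exists_tensor b b').choose_spec, add_comm]

end ten

section count

theorem evc_prod {ι κ : Type} [Finite ι] [Finite κ] (e : ι → ℤ) (f : κ → ℤ) :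
    evc (fun a : ι × κ => e a.1 + f a.2) = evc e * evc f + odc e * odc f := by
  classical
  unfold evc odc
  rw [← Nat.card_prod, ← Nat.card_prod, ← Nat.card_sum]
  refine Nat.card_congr
    { toFun := fun a => if h : Even (e a.1.1)
        then Sum.inl (⟨a.1.1, h⟩, ⟨a.1.2, (Int.even_add.1 a.2).1 h⟩)
        else Sum.inr (⟨a.1.1, Int.not_even_iff_odd.1 h⟩,
          ⟨a.1.2, Int.not_even_iff_odd.1 fun h' => h ((Int.even_add.1 a.2).2 h')⟩)
      invFun := fun a => Sum.elim
        (fun a => ⟨(a.1.1, a.2.1), Int.even_add.2 (iff_of_true a.1.2 a.2.2)⟩)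
        (fun a => ⟨(a.1.1, a.2.1), Int.even_add.2 (iff_of_false
          (Int.not_even_iff_odd.2 a.1.2) (Int.not_even_iff_odd.2 a.2.2))⟩) a
      left_inv := ?_
      right_inv := ?_ }
  · intro a
    by_cases h : Even (e a.1.1)
    · simp [h]
    · simp [h]
  · rintro (a | a)
    · have h := a.1.2
      simp [h]
    · have h := Int.not_even_iff_odd.2 a.1.2
      simp [h]

theorem odc_prod {ι κ : Type} [Finite ι] [Finite κ] (e : ι → ℤ) (f : κ → ℤ) :
    odc (fun a : ι × κ => e a.1 + f a.2) = evc e * odc f + odc e * evc f := by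
  have h := evc_prod e (fun k => f k + 1)
  have h1 : evc (fun a : ι × κ => e a.1 + (f a.2 + 1)) =
      odc (fun a : ι × κ => e a.1 + f a.2) := by
    rw [← evc_succ]
    simp only [add_assoc]
  rw [← h1, h, evc_succ, odc_succ]

end count

section ranks

variable {T : Type u} [Category.{v} T] [Preadditive T] [HasZeroObject T]
    [HasShift T ℤ] [∀ n : ℤ, (shiftFunctor T n).Additive] [Pretriangulated T] [IsTriangulated T]
    [MonoidalCategory T] [SymmetricCategory T] [TensorTriangulated T] [MonoidalClosed T]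
    [HasCoproducts.{0} T] [HasProducts.{0} T] [StableCat T]
variable {K : T} [MonObj K] {X Y : T} {ι κ : Type} [Fintype ι] [Fintype κ]

theorem KBasis.ev_tensor (b : KBasis K X ι) (b' : KBasis K Y κ) :
    (b.tensor b').ev = b.ev * b'.ev + b.od * b'.od := by
  have h := evc_prod b.e b'.e
  rwa [← funext (b.tensor_e b')] at h

theorem KBasis.od_tensor (b : KBasis K X ι) (b' : KBasis K Y κ) :
    (b.tensor b').od = b.ev * b'.od + b.od * b'.ev := by
  have h := odc_prod b.e b'.e
  rwa [← funext (b.tensor_e b')] at h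

end ranks

end Vale.Agent.P241.KR
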