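import Vale.Agent.P241.H435.Start
import Vale.Agent.P241.H435.KTen
import Vale.Agent.P241.H169.Tow
import Vale.Agent.P241.H132.Stage

/-!
# P241: the calculus of ranks, for Morava `K`-theories

* `GFAll S p` : the homotopy of every Morava `K`-theory is a graded field.
* `hasBas_obj` : the `K`-homology of a finite cell space has a finite basis; `rkEx_of : RkEx S p`.
* `rkCalc_of : RkCalc S p`.
-/

open CategoryTheory MonoidalCategory Limits Pretriangulated ZeroObject MonObj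
open Vale.Agent.P251.T Vale.Agent.P251.I Vale.Agent.P251.M
open Vale.Agent.P251.St (Space Map FC SHCat Susp Acyclic)
open Vale.Agent.P241.St (RingA IsMoravaK)
open Vale.Agent.P241.KR

set_option linter.unusedSectionVars false

namespace Vale.Agent.P241.H435

variable {T : SHCat} (S : Susp T) (p : ℕ)

/-- The homotopy of every Morava `K`-theory is a graded field. -/
def GFAll : Prop := ∀ (n : ℕ) (K : RingA T), IsMoravaK S p n K → ∃ q : ℕ, GField K.obj q

variable {S p}

theorem hasBas_obj {K : T.C} [MonObj K] {q : ℕ} (h : GField K q) {X : Space} (hX : FC X) :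
    HasBas K (S.obj X) := by
  have h1 : H169.Tow (S.obj X) :=
    H169.Tow.space S.toSpaceFunctor ⟨Vale.Agent.P251.St.toLC X, Vale.Agent.P251.St.fc_toLC hX⟩
  exact h1.rec' (P := fun Y => HasBas K Y) (fun Y hY => HasBas.zero hY) HasBas.sphere
    (fun Δ hΔ h1 h3 => HasBas.mid (f := Δ.mor₁) (g := Δ.mor₂) (δ := Δ.mor₃) h hΔ h1 h3)

/-- **`RkEx`** : finite ranks. -/
theorem rkEx_of (hG : GFAll S p) : H132.RkEx S p := by
  intro K hK X hX j
  obtain ⟨q, h⟩ := hG j (K j) (hK j)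
  obtain ⟨I, _, ⟨b⟩⟩ := hasBas_obj (S := S) h hX
  exact ⟨Fintype.card I, Fintype.card I, b.reindex (Fintype.equivFin I).symm, le_rfl⟩

theorem nz_of_not_acyclic {K : T.C} [MonObj K] {X : T.C} (h : HasBas K X)
    (h0 : ¬ Acyclic K X) : NZ K X := by
  obtain ⟨I, _, ⟨b⟩⟩ := h
  refine ⟨I, inferInstance, ?_, ⟨b⟩⟩
  by_contra hI
  rw [not_nonempty_iff] at hI
  exact h0 (acyclic_iff_isZero.2 (StableCat.generator _ fun n f => b.zero_of_isEmpty n f))

theorem hasRk_shift {K : RingA T} {X : T.C} {e o : ℕ} {k : ℤ} (hk : Even k)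
    (h : R.HasRk K X e o) : R.HasRk K (X⟦k⟧) e o := by
  obtain ⟨I, _, b, rfl, rfl⟩ := h
  refine ⟨I, inferInstance, b.shift k, ?_, ?_⟩
  · unfold KBasis.ev
    simp only [KBasis.shift_e, Int.even_add, hk, iff_true]
  · unfold KBasis.od
    simp only [KBasis.shift_e, ← Int.not_even_iff_odd, Int.even_add, hk, iff_true]

/-- **The calculus of ranks.** -/
theorem rkCalc_of (hG : GFAll S p) : RkCalc S p where
  iso n K _ X Y α e o h := by
    obtain ⟨I, _, b, rfl, rfl⟩ := h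
    exact ⟨I, inferInstance, b.ofIso α, rfl, rfl⟩
  shift n K _ X e o k hk h := hasRk_shift hk h
  inj n K hK X Y Z f g h D e e' h1 h2 hf := by
    obtain ⟨q, hq⟩ := hG n K hK
    obtain ⟨I, _, b, rfl, hb⟩ := h1
    obtain ⟨J, _, b', rfl, hb'⟩ := h2
    obtain ⟨L, _, ⟨c⟩⟩ := HasBas.cone hq D b.hasBas b'.hasBas
    have h3 := KBasis.inj hq D hf b b' c
    exact ⟨L, inferInstance, c, by omega, by omega⟩
  zero n K hK X Y Z f g h D e e' h1 h2 hf := by
    obtain ⟨q, hq⟩ := hG n K hK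
    obtain ⟨I, _, b, rfl, hb⟩ := h1
    obtain ⟨J, _, b', rfl, hb'⟩ := h2
    obtain ⟨L, _, ⟨c⟩⟩ := HasBas.cone hq D b.hasBas b'.hasBas
    have h3 := KBasis.zeroMap hq D hf b b' c
    exact ⟨L, inferInstance, c, by omega, by omega⟩
  one n K _ := ⟨Unit, inferInstance, inferInstance, ⟨KBasis.unit K.obj⟩⟩
  ten n K _ X Y h1 h2 := by
    obtain ⟨I, _, _, ⟨b⟩⟩ := h1
    obtain ⟨J, _, _, ⟨b'⟩⟩ := h2
    exact ⟨I × J, inferInstance, inferInstance, ⟨b.tensor b'⟩⟩
  space n K hK X hX h0 := by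
    obtain ⟨q, hq⟩ := hG n K hK
    exact nz_of_not_acyclic (hasBas_obj hq hX) h0

end Vale.Agent.P241.H435
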