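import Vale.Agent.P241.BD.Cells
import Vale.Agent.P241.H169.Growth
import Vale.Agent.P241.H251.Growth

/-!
# P241: a chosen family of skeleta of `MU`, and the growth of their numbers of cells

* `Skels R` : chosen skeleta `i d : B d ⟶ R` with cells `s d`;
* `nonempty_skels` : from `BD.SkelAll R`;
* `Skels.exists_slow` : for all `c`, `K`, `D₀` there is `d ≥ D₀` with
  `K * (#(s (d + c)) - #(s d)) + 1 ≤ #(s d)`.
-/

open CategoryTheory MonoidalCategory Limits Pretriangulated ZeroObject MonObj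
open Vale.Agent.P251.T Vale.Agent.P251.S Vale.Agent.P251.H Vale.Agent.P251.M

universe v u

set_option linter.unusedSectionVars false

namespace Vale.Agent.P241.H435

section growth

theorem subexp_of_subexp {f : ℕ → ℕ} (h : H251.Subexp f) : H169.Subexp f := by
  intro x h0 h1
  obtain ⟨C, hC⟩ := h (-Real.log x) (by have := Real.log_neg h0 h1; linarith)
  refine ⟨C, fun n => ?_⟩
  have hx : x ^ n = Real.exp (Real.log x * n) := by
    rw [Real.exp_mul, Real.exp_log h0, Real.rpow_natCast]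
  calc (f n : ℝ) * x ^ n ≤ C * Real.exp (-Real.log x * n) * x ^ n :=
        mul_le_mul_of_nonneg_right (hC n) (pow_nonneg h0.le n)
    _ = C := by
        rw [_root_.mul_assoc, hx, ← Real.exp_add]
        have : -Real.log x * n + Real.log x * n = 0 := by ring
        rw [this, Real.exp_zero, _root_.mul_one]

theorem subexp_mono {f g : ℕ → ℕ} (h : H169.Subexp g) (hfg : ∀ n, f n ≤ g n) :
    H169.Subexp f := by
  intro x h0 h1
  obtain ⟨C, hC⟩ := h x h0 h1
  refine ⟨C, fun n => le_trans ?_ (hC n)⟩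
  exact mul_le_mul_of_nonneg_right (by exact_mod_cast hfg n) (pow_nonneg h0.le n)

theorem subexp_pc : H169.Subexp BD.pc := subexp_of_subexp H251.subexp_pc

end growth

variable {T : Type u} [Category.{v} T] [Preadditive T] [HasZeroObject T]
    [HasShift T ℤ] [∀ n : ℤ, (shiftFunctor T n).Additive] [Pretriangulated T]
    [MonoidalCategory T]

theorem isZero_of_cl_zero {X : T} {s : Multiset ℤ} (h : BD.Cl T s X) (hs : s = 0) :
    IsZero X := by
  induction h with
  | zero X hX => exact hX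
  | sphere k => exact absurd hs (Multiset.singleton_ne_zero k)
  | ext Δ hΔ h₁ h₃ ih₁ ih₃ =>
    have hc := congrArg Multiset.card hs
    rw [Multiset.card_add, Multiset.card_zero] at hc
    have h1 := ih₁ (Multiset.card_eq_zero.mp (by omega))
    have h3 := ih₃ (Multiset.card_eq_zero.mp (by omega))
    rw [IsZero.iff_id_eq_zero]
    obtain ⟨g, hg⟩ := Triangle.coyoneda_exact₂ Δ hΔ (𝟙 _) (h3.eq_of_tgt _ _)
    rw [hg, h1.eq_of_tgt g 0, zero_comp]

variable [HasCoproducts.{0} T]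

/-- A chosen family of skeleta of `R`. -/
structure Skels (R : T) where
  /-- the cells -/
  s : ℕ → Multiset ℤ
  /-- the skeleta -/
  B : ℕ → T
  /-- the inclusions -/
  i (d : ℕ) : B d ⟶ R
  skel (d : ℕ) : BD.IsSkel R d (s d) (i d)
  le (d : ℕ) : (s d).card ≤ BD.pc d

theorem nonempty_skels {R : T} (h : BD.SkelAll R) : Nonempty (Skels R) := by
  choose s B i hi hc using h
  exact ⟨⟨s, B, i, hi, hc⟩⟩

section pos

theorem one_le_card [SymmetricCategory T] [TensorTriangulated T] {R : T} [MonObj R]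
    (hη : η[R] ≠ 0) (h0 : Conn (0 : ℤ) (𝟙_ T))
    (hcomp : ∀ {I : Type} (Y : I → T) (k : ℤ) (f : (𝟙_ T)⟦k⟧ ⟶ ∐ Y),
      ∃ (s : Finset I) (g : (𝟙_ T)⟦k⟧ ⟶ ∐ (fun i : s => Y i)),
        g ≫ Sigma.desc (fun i : s => Sigma.ι Y i) = f)
    {d : ℕ} {s : Multiset ℤ} {B : T} {i : B ⟶ R} (h : BD.IsSkel R d s i) : 1 ≤ s.card := by
  by_contra hs
  have hs0 : s = 0 := Multiset.card_eq_zero.mp (by omega)
  have hB : IsZero B := isZero_of_cl_zero h.cells hs0
  obtain ⟨J, q, w, D, hJ⟩ := h.cof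
  have hJ' : Conn (2 * ((d : ℤ) + 1)) J := hJ.conn h0 hcomp
  refine hη ?_
  have h1 : η[R] ≫ q = 0 := by
    have := hJ' 0 (by omega) (((shiftFunctorZero T ℤ).app (𝟙_ T)).hom ≫ η[R] ≫ q)
    rw [← cancel_epi ((shiftFunctorZero T ℤ).app (𝟙_ T)).hom, this, comp_zero]
  obtain ⟨g, hg⟩ : ∃ g : 𝟙_ T ⟶ B, η[R] = g ≫ i := Triangle.coyoneda_exact₂ _ D η[R] h1
  rw [hg, hB.eq_of_tgt g 0, zero_comp]

end pos

theorem Skels.exists_slow {R : T} (S : Skels R) (hpos : ∀ d, 1 ≤ (S.s d).card) (c K D₀ : ℕ) :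
    ∃ d, D₀ ≤ d ∧ K * ((S.s (d + c)).card - (S.s d).card) + 1 ≤ (S.s d).card :=
  H169.exists_slow (b := fun d => (S.s d).card) hpos
    (subexp_mono subexp_pc S.le) c K D₀

end Vale.Agent.P241.H435
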