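import Vale.Agent.P093.N.RealSpace
import Vale.Agent.P251.St.OfFunctor

/-!
# P241: objects realised by finite cell spaces

* `RealC F X` : `F.S.obj Z ≅ X⟦k⟧` for a finite cell space `Z` and an integer `k`.
* `exists_real_map` : morphisms between realised objects are realised, after a common shift, by
  pointed maps.
* `RealC.cof`, `RealC.tensor`, `RealC.shift`, ... : closure properties; in particular all finite
  cell objects are realised.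
-/

open CategoryTheory MonoidalCategory Limits Pretriangulated ZeroObject
open Vale.Agent.P251.G Vale.Agent.P251.G.LC Vale.Agent.P251.H Vale.Agent.P251.M
  Vale.Agent.P251.T Vale.Agent.P251.I
open Vale.Agent.P093.N.Real

universe v u

set_option linter.unusedSectionVars false

namespace Vale.Agent.P241.H435

variable {T : Type u} [Category.{v} T] [Preadditive T] [HasZeroObject T]
  [HasShift T ℤ] [∀ n : ℤ, (shiftFunctor T n).Additive] [Pretriangulated T]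
  [MonoidalCategory T] [SymmetricCategory T] [TensorTriangulated T]

section spheres

/-- products of spheres -/
theorem nonempty_unit_shift_add (k n m : ℤ) (h : k + n = m) :
    Nonempty ((𝟙_ T)⟦k⟧ ⊗ (𝟙_ T)⟦n⟧ ≅ (𝟙_ T)⟦m⟧) :=
  ⟨tensorUnitShiftIso _ n ≪≫ ((shiftFunctorAdd' T k n m h).app (𝟙_ T)).symm⟩

theorem nonempty_tensor_shift_shift (X : T) (k n m : ℤ) (h : k + n = m) :
    Nonempty ((X ⊗ (𝟙_ T)⟦k⟧) ⊗ (𝟙_ T)⟦n⟧ ≅ X ⊗ (𝟙_ T)⟦m⟧) := by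
  obtain ⟨e⟩ := nonempty_unit_shift_add (T := T) k n m h
  exact ⟨α_ _ _ _ ≪≫ whiskerLeftIso X e⟩

theorem nonempty_shift_tensor (X : T) (n k m : ℤ) (h : n + k = m) :
    Nonempty (X⟦n⟧ ⊗ (𝟙_ T)⟦k⟧ ≅ X ⊗ (𝟙_ T)⟦m⟧) := by
  obtain ⟨e⟩ := nonempty_tensor_shift_shift X n k m h
  exact ⟨whiskerRightIso (tensorUnitShiftIso X n).symm _ ≪≫ e⟩

end spheres

variable (F : SpaceFunctor T)

/-- `X` is, up to a shift, the suspension spectrum of a finite cell space. -/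
def RealC (X : T) : Prop := ∃ (Z : FCat) (k : ℤ), Nonempty (F.S.obj Z ≅ X ⊗ (𝟙_ T)⟦k⟧)

variable {F}

theorem RealC.exists_shift {X : T} (h : RealC F X) :
    ∃ (Z : FCat) (k : ℤ), Nonempty (F.S.obj Z ≅ X⟦k⟧) := by
  obtain ⟨Z, k, ⟨e⟩⟩ := h
  exact ⟨Z, k, ⟨e ≪≫ tensorUnitShiftIso X k⟩⟩

theorem RealC.of_shift {X : T} {Z : FCat} {k : ℤ} (e : F.S.obj Z ≅ X⟦k⟧) : RealC F X :=
  ⟨Z, k, ⟨e ≪≫ (tensorUnitShiftIso X k).symm⟩⟩

theorem RealC.of_iso {X Y : T} (e : X ≅ Y) (h : RealC F X) : RealC F Y := by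
  obtain ⟨Z, k, ⟨e'⟩⟩ := h
  exact ⟨Z, k, ⟨e' ≪≫ whiskerRightIso e _⟩⟩

theorem realC_space (Z : FCat) : RealC F (F.S.obj Z) :=
  RealC.of_shift (k := 0) ((shiftFunctorZero T ℤ).app _).symm

theorem RealC.shift {X : T} (h : RealC F X) (n : ℤ) : RealC F (X⟦n⟧) := by
  obtain ⟨Z, k, ⟨e⟩⟩ := h
  obtain ⟨e'⟩ := nonempty_shift_tensor X n (k - n) k (by ring)
  exact ⟨Z, k - n, ⟨e ≪≫ e'.symm⟩⟩

theorem realC_unit : RealC F (𝟙_ T) :=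
  (realC_space (F := F) (𝟙_ FCat)).of_iso (Functor.Monoidal.εIso F.S).symm

theorem realC_sphere (n : ℤ) : RealC F ((𝟙_ T)⟦n⟧) := realC_unit.shift n

theorem realC_zero {X : T} (h : IsZero X) : RealC F X := by
  let Z : FCat := ⟨LC.of Empty, FC.empty⟩
  have hz : IsZero (F.S.obj Z) := F.isZero (inferInstanceAs (IsEmpty Empty))
  refine RealC.of_iso (hz.iso h) (realC_space Z)

theorem RealC.tensor {X Y : T} (hX : RealC F X) (hY : RealC F Y) : RealC F (X ⊗ Y) := by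
  obtain ⟨Z, k, ⟨e⟩⟩ := hX
  obtain ⟨W, l, ⟨e'⟩⟩ := hY
  obtain ⟨e''⟩ := nonempty_unit_shift_add (T := T) k l (k + l) rfl
  refine ⟨Z ⊗ W, k + l, ⟨(Functor.Monoidal.μIso F.S Z W).symm ≪≫ whiskerRightIso e _ ≪≫
    whiskerLeftIso _ e' ≪≫ α_ _ _ _ ≪≫ whiskerLeftIso X ((α_ _ _ _).symm ≪≫
      whiskerRightIso (β_ _ _) _ ≪≫ α_ _ _ _) ≪≫ (α_ _ _ _).symm ≪≫ whiskerLeftIso _ e''⟩⟩

/-- suspension -/
theorem raise' {X : T} {Z : FCat} {k : ℤ} (e : Nonempty (F.S.obj Z ≅ X ⊗ (𝟙_ T)⟦k⟧)) (n : ℕ)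
    (m : ℤ) (hm : k + n = m) : Nonempty (F.S.obj (Z ⊗ SphF n) ≅ X ⊗ (𝟙_ T)⟦m⟧) := by
  obtain ⟨e⟩ := e
  obtain ⟨e'⟩ := nonempty_tensor_shift_shift X k n m hm
  exact ⟨(Functor.Monoidal.μIso F.S Z (SphF n)).symm ≪≫ whiskerLeftIso _ (sphIso F n) ≪≫
    whiskerRightIso e _ ≪≫ e'⟩

/-- **Realisation of morphisms.** -/
theorem exists_real_map {X Y : T} (g : X ⟶ Y) (hX : RealC F X) (hY : RealC F Y) :
    ∃ (Z W : FCat) (h : Z ⟶ W) (k : ℤ), AIso (F.S.map h) (g ▷ ((𝟙_ T)⟦k⟧)) := by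
  obtain ⟨Z, k, e⟩ := hX
  obtain ⟨W, l, e'⟩ := hY
  obtain ⟨a, b, m, ha, hb⟩ : ∃ (a b : ℕ) (m : ℤ), k + a = m ∧ l + b = m :=
    ⟨(l - k).toNat, (k - l).toNat, max k l, by omega, by omega⟩
  obtain ⟨e₁⟩ := raise' e a m ha
  obtain ⟨e₂⟩ := raise' e' b m hb
  let φ : F.S.obj (Z ⊗ SphF a) ⟶ F.S.obj (W ⊗ SphF b) := e₁.hom ≫ (g ▷ ((𝟙_ T)⟦m⟧)) ≫ e₂.inv
  have h1 : AIso φ (g ▷ ((𝟙_ T)⟦m⟧)) := AIso.conj e₁ _ e₂.symm
  obtain ⟨n, h, hh⟩ := F.full φ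
  obtain ⟨e₃⟩ := nonempty_unit_shift_add (T := T) m n (m + n) rfl
  refine ⟨_, _, h, m + n, ?_⟩
  rw [hh]
  refine (AIso.conj (Functor.Monoidal.μIso F.S _ (SphF n)).symm _
      (Functor.Monoidal.μIso F.S _ (SphF n))).trans ?_
  refine (h1.whiskerRight _).trans ((AIso.assocR g _ _).trans ?_)
  exact AIso.whiskerRight_iso (whiskerLeftIso _ (sphIso F n) ≪≫ e₃) g

theorem RealC.cof {X Y C : T} {f : X ⟶ Y} (h : IsCof f C) (hX : RealC F X) (hY : RealC F Y) :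
    RealC F C := by
  obtain ⟨Z, W, g, k, e⟩ := exists_real_map f hX hY
  obtain ⟨c', D'⟩ := exists_coneTriangle F g
  obtain ⟨i⟩ := IsCof.iso (⟨_, _, D'⟩ : IsCof (F.S.map g) _) (h.whiskerRight _) e
  exact ⟨_, k, ⟨i⟩⟩

theorem RealC.dist₃ {X Y C : T} {f : X ⟶ Y} {g : Y ⟶ C} {h : C ⟶ X⟦(1 : ℤ)⟧} (D : Dist f g h)
    (hX : RealC F X) (hY : RealC F Y) : RealC F C := RealC.cof ⟨g, h, D⟩ hX hY

theorem RealC.dist₂ {X Y C : T} {f : X ⟶ Y} {g : Y ⟶ C} {h : C ⟶ X⟦(1 : ℤ)⟧} (D : Dist f g h)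
    (hX : RealC F X) (hC : RealC F C) : RealC F Y := by
  have h1 : RealC F (Y⟦(1 : ℤ)⟧) :=
    RealC.dist₃ (rot_of_distTriang _ (rot_of_distTriang _ D)) hC (hX.shift 1)
  exact (h1.shift (-1)).of_iso ((shiftFunctorCompIsoId T (1 : ℤ) (-1) (by ring)).app Y)

theorem RealC.dist₁ {X Y C : T} {f : X ⟶ Y} {g : Y ⟶ C} {h : C ⟶ X⟦(1 : ℤ)⟧} (D : Dist f g h)
    (hY : RealC F Y) (hC : RealC F C) : RealC F X := by
  have h1 : RealC F (X⟦(1 : ℤ)⟧) := RealC.dist₃ (rot_of_distTriang _ D) hY hC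
  exact (h1.shift (-1)).of_iso ((shiftFunctorCompIsoId T (1 : ℤ) (-1) (by ring)).app X)

theorem EvenCell.realC {d : ℤ} {X : T} (h : EvenCell T d X) : RealC F X := by
  induction h with
  | zero X hX => exact realC_zero hX
  | sphere k hk => exact realC_sphere _
  | ext Δ hΔ h1 h3 ih1 ih3 => exact RealC.dist₂ hΔ ih1 ih3

end Vale.Agent.P241.H435
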