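import Vale.Agent.P241.H435.RealSt
import Vale.Agent.P241.KR.Defs
import Vale.Agent.P241.BD.Main
import Vale.Agent.P241.BD.Mult
import Vale.Agent.P241.R.TSide

/-!
# P241, block START: finite cell spaces of type `n`

* `NZ K X` : `K ⊗ X` has a non-empty finite basis over `K`.
* `RkCalc S p` : the calculus of the ranks of `K`-homology (iso, even shifts, triangles, tensor
  products).
* `VelIn S p X` : `v_t` acts injectively on `K(t)_* MU` and as zero on `K(n) ⊗ MU`, `t < n`.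
* `exists_pt` : the object `P_t`.
* `exists_yt` : the space `Y_t` with `K(t)_* Y_t = 0` and `K(j)_* Y_t ≠ 0` for `j > t`.
* `typeStmt_of` : `TypeStmt S p`.
-/

open CategoryTheory MonoidalCategory Limits Pretriangulated ZeroObject MonObj
open Vale.Agent.P251.T Vale.Agent.P251.I Vale.Agent.P251.M Vale.Agent.P093.N.Real
open Vale.Agent.P093.N.LR (DimLE)
open Vale.Agent.P251.H (exists_cone Dist)
open Vale.Agent.P251.St (Space Map FC SHCat Susp Acyclic)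
open Vale.Agent.P241.St (RingA IsMoravaK)
open Vale.Agent.P241.KR Vale.Agent.P093.SymPow Vale.Agent.P093.N.Young

universe v u

set_option linter.unusedSectionVars false

namespace Vale.Agent.P241.H435

section nz

variable {T : Type u} [Category.{v} T] [Preadditive T] [HasZeroObject T]
    [HasShift T ℤ] [∀ n : ℤ, (shiftFunctor T n).Additive] [Pretriangulated T]
    [MonoidalCategory T] [SymmetricCategory T] [TensorTriangulated T]

/-- `K ⊗ X` has a non-empty finite basis over `K`. -/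
def NZ (K X : T) [MonObj K] : Prop :=
  ∃ (I : Type) (_ : Fintype I) (_ : Nonempty I), Nonempty (KBasis K X I)

theorem whiskerRight_sphere_ne {a : ℤ} {A X Y : T} (hA : Nonempty (A ≅ (𝟙_ T)⟦a⟧))
    {f : X ⟶ Y} (h : f ≠ 0) : f ▷ A ≠ 0 := fun h0 =>
  h (BD.eq_zero_of_whiskerRight_sphere hA h0)

theorem NZ.not_isZero {K X : T} [MonObj K] (hK : η[K] ≠ 0) (h : NZ K X) :
    ¬ IsZero (K ⊗ X) := by
  classical
  obtain ⟨I, _, ⟨i₀⟩, ⟨b⟩⟩ := h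
  intro h0
  have key := (b.bij (b.e i₀)).1
  have h1 : (λ_ _).inv ≫ η[K] ▷ ((𝟙_ T)⟦b.e i₀⟧) = 0 := by
    have := @key (Function.update 0 i₀ ((λ_ _).inv ≫ η[K] ▷ ((𝟙_ T)⟦b.e i₀⟧))) 0
      (h0.eq_of_tgt _ _)
    have h2 := congrFun this i₀
    simpa using h2
  rw [Preadditive.IsIso.comp_left_eq_zero] at h1
  exact whiskerRight_sphere_ne ⟨Iso.refl _⟩ hK h1

end nz

section inputs

variable {T : SHCat} (S : Susp T) (p : ℕ)

/-- The calculus of the ranks of the `K`-homology. -/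
structure RkCalc : Prop where
  iso : ∀ (n : ℕ) (K : RingA T), IsMoravaK S p n K → ∀ {X Y : T.C} (_ : X ≅ Y) (e o : ℕ),
    R.HasRk K X e o → R.HasRk K Y e o
  shift : ∀ (n : ℕ) (K : RingA T), IsMoravaK S p n K → ∀ (X : T.C) (e o : ℕ) (k : ℤ), Even k →
    R.HasRk K X e o → R.HasRk K (X⟦k⟧) e o
  inj : ∀ (n : ℕ) (K : RingA T), IsMoravaK S p n K → ∀ {X Y Z : T.C} (f : X ⟶ Y) (g : Y ⟶ Z)
    (h : Z ⟶ X⟦(1 : ℤ)⟧), Triangle.mk f g h ∈ distTriang T.C → ∀ (e e' : ℕ),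
    R.HasRk K X e 0 → R.HasRk K Y e' 0 → R.InjK K.obj f → R.HasRk K Z (e' - e) 0
  zero : ∀ (n : ℕ) (K : RingA T), IsMoravaK S p n K → ∀ {X Y Z : T.C} (f : X ⟶ Y) (g : Y ⟶ Z)
    (h : Z ⟶ X⟦(1 : ℤ)⟧), Triangle.mk f g h ∈ distTriang T.C → ∀ (e e' : ℕ),
    R.HasRk K X e 0 → R.HasRk K Y e' 0 → R.ZeroK K.obj f → R.HasRk K Z e' e
  one : ∀ (n : ℕ) (K : RingA T), IsMoravaK S p n K → NZ K.obj (𝟙_ T.C)
  ten : ∀ (n : ℕ) (K : RingA T), IsMoravaK S p n K → ∀ (X Y : T.C), NZ K.obj X → NZ K.obj Y →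
    NZ K.obj (X ⊗ Y)
  space : ∀ (n : ℕ) (K : RingA T), IsMoravaK S p n K → ∀ (X : Space), FC X →
    ¬ Acyclic K.obj (S.obj X) → NZ K.obj (S.obj X)

variable {S} in
/-- `v_t` acts injectively on `K(t)_* MU` and as zero on `K(n) ⊗ MU` for `t < n`. -/
def VelIn (X : Final.Ctx S) : Prop :=
  ∀ (n : ℕ) (K : RingA T), IsMoravaK S p n K →
    R.InjK K.obj (X.D.R ◁ X.D.vel p n ≫ μ[X.D.R]) ∧
      ∀ t < n, K.obj ◁ (X.D.R ◁ X.D.vel p t ≫ μ[X.D.R]) = 0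

end inputs

section pt

variable {T : SHCat} {S : Susp T} {p : ℕ}

theorem rlin_eq (R : T.C) [MonObj R] {A : T.C} (x : A ⟶ R) :
    BD.rlin R (x ≫ (ρ_ R).inv) = (R ◁ x ≫ μ[R]) ≫ (ρ_ R).inv := by
  unfold BD.rlin
  simp

/-- **The object `P_t`** : the cofibre of `v_t : A ⊗ B_d ⟶ B_(d+c)`. -/
theorem exists_pt (X : Final.Ctx S) (hc : RkCalc S p) (hsk : R.SkelRkStmt S p X)
    (hv : VelIn p X) {K : ℕ → RingA T} (hK : ∀ i, IsMoravaK S p i (K i)) (t : ℕ) :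
    ∃ (P : T.C) (a b : ℕ), RealC S.toSpaceFunctor P ∧ 2 * (b - a) + 1 ≤ a ∧ a ≤ b ∧
      R.HasRk (K t) P (b - a) 0 ∧ ∀ j, t < j → R.HasRk (K j) P b a := by
  obtain ⟨sk⟩ := X.nonempty_skels
  let c : ℕ := p ^ t
  obtain ⟨d, -, hd⟩ := BD.exists_growth c 1 0
  let A : T.C := (stdEven T.C).S ((p : ℤ) ^ t - 1)
  let x : A ⟶ X.D.R := X.D.vel p t
  have hA : Nonempty (A ≅ (𝟙_ T.C)⟦2 * ((p : ℤ) ^ t - 1)⟧) := stdEven_sph _
  have hDA : DimLE (2 * ((p : ℤ) ^ t - 1)) A := by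
    obtain ⟨e⟩ := hA
    exact (DimLE.sphere _ le_rfl).of_iso e.symm
  have hQ : Nonempty (𝟙_ T.C ≅ (𝟙_ T.C)⟦(0 : ℤ)⟧) := ⟨((shiftFunctorZero T.C ℤ).app _).symm⟩
  let κ : sk.B d ⟶ X.D.R ⊗ 𝟙_ T.C := sk.i d ≫ (ρ_ X.D.R).inv
  have hκ : BD.SkelAt X.D.R d (sk.s d) (𝟙_ T.C) κ :=
    ⟨sk.B d, sk.i d, (ρ_ _).symm, sk.skel d, by
      simp only [κ, Iso.symm_hom]
      rw [rightUnitor_inv_naturality]⟩
  let κ' : sk.B (d + c) ⟶ X.D.R ⊗ (𝟙_ T.C ⊗ 𝟙_ T.C) :=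
    (sk.i (d + c) ≫ (ρ_ X.D.R).inv) ≫ (X.D.R ◁ (λ_ (𝟙_ T.C)).symm.hom)
  have hκ' : BD.SkelAt X.D.R (d + c) (sk.s (d + c)) (𝟙_ T.C ⊗ 𝟙_ T.C) κ' :=
    BD.SkelAt.comp_iso ⟨sk.B (d + c), sk.i (d + c), (ρ_ _).symm, sk.skel (d + c), by
      simp only [Iso.symm_hom]
      rw [rightUnitor_inv_naturality]⟩ _
  obtain ⟨m, hm⟩ := BD.exists_mult (R := X.D.R) X.conn
    (fun Y k f => StableCat.compact k Y f) hDA hQ
    (by simp only [c]; push_cast; omega : 2 * ((p : ℤ) ^ t - 1) < 2 * (c : ℤ) + 2 + 0) le_rfl hQ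
    hκ hκ' (x ≫ (ρ_ X.D.R).inv)
  obtain ⟨P, g, h, D⟩ := exists_cone m
  -- the ranks of the source and the target
  have hr1 : ∀ j, R.HasRk (K j) (A ⊗ sk.B d) (BD.pc d) 0 := fun j => by
    obtain ⟨e⟩ := hA
    refine hc.iso j (K j) (hK j) (?_ : (sk.B d)⟦2 * ((p : ℤ) ^ t - 1)⟧ ≅ A ⊗ sk.B d) _ _ ?_
    · exact (tensorUnitShiftIso _ _).symm ≪≫ β_ _ _ ≪≫ whiskerRightIso e.symm _
    · refine hc.shift j (K j) (hK j) _ _ _ _ (even_two_mul _) ?_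
      rw [← sk.card d]
      exact (hsk j (K j) (hK j) d _ _ _ (sk.skel d)).1
  have hr2 : ∀ j, R.HasRk (K j) (sk.B (d + c)) (BD.pc (d + c)) 0 := fun j => by
    rw [← sk.card (d + c)]
    exact (hsk j (K j) (hK j) (d + c) _ _ _ (sk.skel (d + c))).1
  have hiκ : ∀ j, BD.InjH (K j).obj κ := fun j =>
    BD.InjH.comp_iso (hsk j (K j) (hK j) d _ _ _ (sk.skel d)).2 (ρ_ X.D.R).symm
  have hiκ' : ∀ j, BD.InjH (K j).obj κ' := fun j =>
    (BD.InjH.comp_iso (hsk j (K j) (hK j) (d + c) _ _ _ (sk.skel (d + c))).2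
      (ρ_ X.D.R).symm).comp (BD.InjH.of_isIso _)
  have hrl : BD.rlin X.D.R (x ≫ (ρ_ X.D.R).inv) = (X.D.R ◁ x ≫ μ[X.D.R]) ≫ (ρ_ X.D.R).inv :=
    rlin_eq _ _
  refine ⟨P, BD.pc d, BD.pc (d + c), ?_, by omega, BD.monotone_pc (Nat.le_add_right _ _), ?_,
    fun j hj => ?_⟩
  · obtain ⟨_, h1⟩ := (sk.skel d).cells.exists_evenCell
    obtain ⟨_, h2⟩ := (sk.skel (d + c)).cells.exists_evenCell
    obtain ⟨e⟩ := hA
    exact RealC.dist₃ D ((RealC.of_iso e.symm (realC_sphere _)).tensor (EvenCell.realC h1))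
      (EvenCell.realC h2)
  · -- height `t`
    refine hc.inj t (K t) (hK t) m g h D _ _ (hr1 t) (hr2 t) ?_
    have h1 : BD.InjH (K t).obj (BD.mulExt X.D.R (x ≫ (ρ_ X.D.R).inv) κ) :=
      BD.injH_mulExt hA hQ (hiκ t) (by
        rw [hrl]
        exact BD.InjH.comp_iso (hv t (K t) (hK t)).1 (ρ_ X.D.R).symm)
    rw [← hm] at h1
    exact h1.of_comp
  · -- height `j > t`
    refine hc.zero j (K j) (hK j) m g h D _ _ (hr1 j) (hr2 j) ?_
    have h1 : (K j).obj ◁ BD.mulExt X.D.R (x ≫ (ρ_ X.D.R).inv) κ = 0 :=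
      BD.whiskerLeft_mulExt_eq_zero (by
        rw [hrl, MonoidalCategory.whiskerLeft_comp, (hv j (K j) (hK j)).2 t hj, zero_comp])
    intro n y
    refine hiκ' j n _ ?_
    rw [Category.assoc, ← MonoidalCategory.whiskerLeft_comp, hm, h1, comp_zero]

/-- realisation with an even shift -/
theorem RealC.exists_space_even {X : T.C} (h : RealC S.toSpaceFunctor X) :
    ∃ (Z : Space) (_ : FC Z) (k : ℤ), Even k ∧ Nonempty (S.obj Z ≅ X⟦k⟧) := by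
  obtain ⟨Z, k, e⟩ := h
  have key : ∃ (Z : FCat) (k : ℤ), Even k ∧
      Nonempty (S.toSpaceFunctor.S.obj Z ≅ X ⊗ (𝟙_ T.C)⟦k⟧) := by
    rcases Int.even_or_odd k with hk | hk
    · exact ⟨Z, k, hk, e⟩
    · exact ⟨_, k + 1, hk.add_one, raise' e 1 (k + 1) (by simp)⟩
  obtain ⟨Z, k, hk, ⟨e⟩⟩ := key
  exact ⟨Vale.Agent.P251.St.ofLC Z.obj, Vale.Agent.P251.St.fc_ofLC Z.property, k, hk,
    ⟨e ≪≫ tensorUnitShiftIso X k⟩⟩

theorem realC_tpow {X : T.C} (h : RealC S.toSpaceFunctor X) (m : ℕ) :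
    RealC S.toSpaceFunctor (tpow X m) := by
  induction m with
  | zero => exact realC_unit
  | succ m ih => exact h.tensor ih

/-- **The space `Y_t`.** -/
theorem exists_yt (X : Final.Ctx S) (hc : RkCalc S p) (hsk : R.SkelRkStmt S p X)
    (hv : VelIn p X) (hY : R.YoungStmt S p) {K : ℕ → RingA T} (hK : ∀ i, IsMoravaK S p i (K i))
    (t : ℕ) : ∃ Y : Space, FC Y ∧ Acyclic (K t).obj (S.obj Y) ∧
      ∀ j, t < j → ¬ Acyclic (K j).obj (S.obj Y) := by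
  obtain ⟨P, a, b, h1, h2, h3, h4, h5⟩ := exists_pt X hc hsk hv hK t
  obtain ⟨Z, hZ, k, hk, ⟨e⟩⟩ := h1.exists_space_even
  have hr : ∀ (j e₁ o₁ : ℕ), R.HasRk (K j) P e₁ o₁ → R.HasRk (K j) (S.obj Z) e₁ o₁ :=
    fun j e₁ o₁ h => hc.iso j (K j) (hK j) e.symm _ _ (hc.shift j (K j) (hK j) P _ _ k hk h)
  let r : ℕ := 2 * (b - a) + 1
  obtain ⟨C, g, h, D⟩ := exists_cone (R.youngMap p r (S.obj Z))
  have hC : RealC S.toSpaceFunctor C :=
    RealC.dist₃ D (realC_tpow (realC_obj S hZ) _) (realC_tpow (realC_obj S hZ) _)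
  obtain ⟨Y, hY', l, ⟨e'⟩⟩ := RealC.exists_space S hC
  have key : ∀ j, Acyclic (K j).obj (S.obj Y) ↔ Acyclic (K j).obj C := fun j => by
    rw [acyclic_congr e', acyclic_shift]
  refine ⟨Y, hY', (key t).2 ?_, fun j hj h0 => ?_⟩
  · exact (hY t (K t) (hK t) Z hZ _ _ (hr t _ _ h4) r C g h D).1 (by omega)
  · exact (hY j (K j) (hK j) Z hZ _ _ (hr j _ _ (h5 j hj)) r C g h D).2 (by omega) ((key j).1 h0)

end pt

section main

variable {T : SHCat} {S : Susp T} {p : ℕ}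

theorem realC_acyclic_space {X : T.C} (h : RealC S.toSpaceFunctor X) :
    ∃ (Z : Space) (_ : FC Z), ∀ E : T.C, Acyclic E (S.obj Z) ↔ Acyclic E X := by
  obtain ⟨Z, hZ, k, ⟨e⟩⟩ := RealC.exists_space S h
  exact ⟨Z, hZ, fun E => by rw [acyclic_congr e, acyclic_shift]⟩

theorem unit_ne {n : ℕ} {K : RingA T} (h : IsMoravaK S p n K) : η[K.obj] ≠ 0 := by
  unfold IsMoravaK at h
  split_ifs at h with hn
  · exact h.ne
  · exact h.1.ne

/-- Objects of type `n`. -/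
theorem exists_type (hc : RkCalc S p) {K : ℕ → RingA T} (hK : ∀ i, IsMoravaK S p i (K i))
    (hy : ∀ t : ℕ, ∃ Y : Space, FC Y ∧ Acyclic (K t).obj (S.obj Y) ∧
      ∀ j, t < j → ¬ Acyclic (K j).obj (S.obj Y)) (n : ℕ) :
    ∃ Y : T.C, RealC S.toSpaceFunctor Y ∧ (∀ j < n, Acyclic (K j).obj Y) ∧
      ∀ j, n ≤ j → NZ (K j).obj Y := by
  induction n with
  | zero => exact ⟨𝟙_ T.C, realC_unit, fun j hj => absurd hj (Nat.not_lt_zero j),
      fun j _ => hc.one j (K j) (hK j)⟩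
  | succ n ih =>
    obtain ⟨Y, h1, h2, h3⟩ := ih
    obtain ⟨Z, g1, g2, g3⟩ := hy n
    refine ⟨Y ⊗ S.obj Z, h1.tensor (realC_obj S g1), fun j hj => ?_, fun j hj =>
      hc.ten j (K j) (hK j) Y _ (h3 j (by omega))
        (hc.space j (K j) (hK j) Z g1 (g3 j (by omega)))⟩
    rcases Nat.lt_succ_iff_lt_or_eq.1 hj with hj | rfl
    · exact acyclic_tensor (h2 j hj)
    · exact (acyclic_congr (β_ (S.obj Z) Y)).1 (acyclic_tensor g2)

/-- **Finite cell spaces of type `n`**, from the objects `Y_t`. -/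
theorem typeStmt_of_yt (hc : RkCalc S p)
    (hy : ∀ K : ℕ → RingA T, (∀ i, IsMoravaK S p i (K i)) → ∀ t : ℕ, ∃ Y : Space, FC Y ∧
      Acyclic (K t).obj (S.obj Y) ∧ ∀ j, t < j → ¬ Acyclic (K j).obj (S.obj Y)) :
    R.TypeStmt S p := by
  intro K hK n
  obtain ⟨Y, h1, h2, h3⟩ := exists_type hc hK (hy K hK) n
  obtain ⟨Z, hZ, e⟩ := realC_acyclic_space h1
  exact ⟨Z, hZ, fun j hj => (e _).2 (h2 j hj), fun h =>
    (h3 n le_rfl).not_isZero (unit_ne (hK n)) (acyclic_iff_isZero.1 ((e _).1 h))⟩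

/-- **Block START** : finite cell spaces of type `n`. -/
theorem typeStmt_of (X : Final.Ctx S) (hc : RkCalc S p) (hsk : R.SkelRkStmt S p X)
    (hv : VelIn p X) (hY : R.YoungStmt S p) : R.TypeStmt S p :=
  typeStmt_of_yt hc fun _ hK t => exists_yt X hc hsk hv hY hK t

end main

end Vale.Agent.P241.H435
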