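import Vale.Agent.P241.H435.Main
import Vale.Agent.P241.H640.YStmt
import Vale.Agent.P241.H963.Gf

/-!
# P241, blocks YOUNG and START: `YoungStmt` and `TypeStmt`, unconditionally
-/

open Vale.Agent.P251.St (SHCat Susp)

namespace Vale.Agent.P241.H435

variable {T : SHCat} {S : Susp T} {p : ℕ} [hp : Fact p.Prime]

/-- **YOUNG** -/
theorem youngStmt : R.YoungStmt S p :=
  H640.youngStmt_of_gfield S hp.out fun _ _ hK =>
    ⟨_, BD2.gfield hK, YK.sphK_of_gfield (BD2.gfield hK)⟩

/-- **START** : finite cell spaces of type `n`. -/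
theorem typeStmt : R.TypeStmt S p := typeStmt_of_young youngStmt

end Vale.Agent.P241.H435
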